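import Vale.Agent.P067.Alld.Bld.Stmt
import Vale.Agent.P067.Full.Opp.Contr
import Vale.Agent.P067.Full.Opp.Fill

/-!
P067, module II-d: a greedy family of lead sets is closed under adding a generic point, so the
complex of subspaces with allowed lead sets is acyclic in low degrees.
-/

namespace Vale.Agent.P067.Alld.Bld

open Finset Module

variable {K V : Type} [Field K] [AddCommGroup V] [Module K V] [FiniteDimensional K V]
  {E : ℕ → Submodule K V} {n : ℕ} {W W' : Submodule K V}

theorem mem_leads (hmono : Monotone E) {i : ℕ} :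
    i ∈ leads E n W ↔ i < n ∧ ∃ v ∈ W, v ∈ E (i + 1) ∧ v ∉ E i := by
  simp only [leads, mem_filter, mem_range]
  refine and_congr_right fun _ => ⟨fun h => ?_, fun ⟨v, hv, hv1, hv0⟩ => ?_⟩
  · by_contra! hc
    have hle : W ⊓ E (i + 1) ≤ W ⊓ E i := fun v hv => ⟨hv.1, hc v hv.1 hv.2⟩
    exact absurd (Submodule.finrank_mono hle) (not_le.2 h)
  · refine Submodule.finrank_lt_finrank_of_lt (lt_of_le_of_ne
      (inf_le_inf_left _ (hmono (Nat.le_succ i))) fun he => ?_)
    exact hv0 (he.ge (⟨hv, hv1⟩ : v ∈ W ⊓ E (i + 1))).2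

omit [FiniteDimensional K V] in
theorem leads_subset_range : leads E n W ⊆ range n := filter_subset _ _

theorem leads_mono (hmono : Monotone E) (h : W ≤ W') : leads E n W ⊆ leads E n W' := fun i hi => by
  obtain ⟨hin, v, hv, hv'⟩ := (mem_leads hmono).1 hi
  exact (mem_leads hmono).2 ⟨hin, v, h hv, hv'⟩

theorem leads_bot (hmono : Monotone E) : leads E n (⊥ : Submodule K V) = ∅ :=
  eq_empty_of_forall_notMem fun i hi => by
    obtain ⟨-, v, hv, -, hv'⟩ := (mem_leads hmono).1 hi
    exact hv' ((Submodule.mem_bot K).1 hv ▸ zero_mem _)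

theorem card_leads (hmono : Monotone E) (hdim : ∀ j ≤ n, finrank K (E j) = j) (hW : W ≤ E n) :
    (leads E n W).card = finrank K W := by
  classical
  have key : ∀ j ≤ n, ((range j).filter fun i =>
      finrank K (W ⊓ E i : Submodule K V) < finrank K (W ⊓ E (i + 1) : Submodule K V)).card =
      finrank K (W ⊓ E j : Submodule K V) := by
    intro j hj
    induction j with
    | zero =>
      have h := Submodule.finrank_mono (inf_le_right : W ⊓ E 0 ≤ E 0)
      rw [hdim 0 hj] at h
      simp only [range_zero, filter_empty, card_empty]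
      omega
    | succ j ih =>
      have h1 := Submodule.finrank_mono
        (inf_le_inf_left W (hmono (Nat.le_succ j)) : W ⊓ E j ≤ W ⊓ E (j + 1))
      have h2 := Submodule.finrank_sup_add_finrank_inf_eq (W ⊓ E (j + 1)) (E j)
      have h3 := Submodule.finrank_mono
        (sup_le inf_le_right (hmono (Nat.le_succ j)) : (W ⊓ E (j + 1)) ⊔ E j ≤ E (j + 1))
      rw [inf_assoc, inf_eq_right.2 (hmono (Nat.le_succ j)), hdim j (by omega)] at h2
      rw [hdim (j + 1) hj] at h3
      rw [range_add_one, filter_insert]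
      split_ifs with hlt
      · rw [card_insert_of_notMem (by simp), ih (by omega)]
        omega
      · rw [ih (by omega)]
        omega
  calc (leads E n W).card = finrank K (W ⊓ E n : Submodule K V) := by
        simp only [leads]
        convert key n le_rfl
    _ = finrank K W := by rw [inf_eq_left.2 hW]

theorem leads_top (hmono : Monotone E) (hdim : ∀ j ≤ n, finrank K (E j) = j) :
    leads E n (E n) = range n :=
  eq_of_subset_of_card_le leads_subset_range
    (by rw [card_leads hmono hdim le_rfl, hdim n le_rfl, card_range])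

/-- Adding a generic point of `B` to `P` adds the largest lead of `B` missing from `P`. -/
theorem gen_leads (hmono : Monotone E) (hdim : ∀ j ≤ n, finrank K (E j) = j) {A : Finset ℕ → Prop}
    (hA : IsGreedy n A) {B : Submodule K V} (hB : B ≤ E n) (hB' : B = E n ∨ A (leads E n B)) :
    Full.Opp.Gen (fun x => A (leads E n x)) B := by
  intro P hPB hP hd
  have hRR₀ : leads E n P ⊆ leads E n B := leads_mono hmono hPB
  have hcR := card_leads hmono hdim (hPB.trans hB)
  have hcB := card_leads hmono hdim hB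
  have hne : (leads E n B \ leads E n P).Nonempty := by
    rw [← card_pos, card_sdiff_of_subset hRR₀]
    omega
  set c := (leads E n B \ leads E n P).max' hne with hc
  obtain ⟨hcB', hcP⟩ := mem_sdiff.1 (max'_mem _ hne)
  rw [← hc] at hcB' hcP
  obtain ⟨hcn, b, hb, hb1, hb0⟩ := (mem_leads hmono).1 hcB'
  refine ⟨(P ⊔ E c) ⊓ B, inf_le_right, fun he => ?_, le_inf le_sup_left hPB, fun p hp hpH => ?_⟩
  · obtain ⟨v, hv, w, hw, rfl⟩ := Submodule.mem_sup.1 (he.ge hb).1
    refine hcP ((mem_leads hmono).2 ⟨hcn, v, hv, ?_, fun hv' => hb0 (add_mem hv' hw)⟩)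
    simpa using sub_mem hb1 (hmono (Nat.le_succ c) hw)
  have hpE : p ∉ P ⊔ E c := fun h => hpH ⟨h, hp⟩
  have hpP : p ∉ P := fun h => hpE (Submodule.mem_sup_left h)
  set P' := P ⊔ Submodule.span K {p}
  have hP'B : P' ≤ B := sup_le hPB ((Submodule.span_singleton_le_iff_mem _ _).2 hp)
  have hcard : (leads E n P').card = (leads E n P).card + 1 := by
    rw [card_leads hmono hdim (hP'B.trans hB), hcR]
    exact Sparse.finrank_sup_line hpP
  have hsub : leads E n P' ⊆ insert c (leads E n P) := fun e he => by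
    by_contra hmem
    obtain ⟨hec, heP⟩ := not_or.1 (mt mem_insert.2 hmem)
    have hle : e ≤ c := le_max' _ e (mem_sdiff.2 ⟨leads_mono hmono hP'B he, heP⟩)
    obtain ⟨hen, v, hv, hv1, hv0⟩ := (mem_leads hmono).1 he
    obtain ⟨u, hu, s, hs, rfl⟩ := Submodule.mem_sup.1 hv
    obtain ⟨a, rfl⟩ := Submodule.mem_span_singleton.1 hs
    rcases eq_or_ne a 0 with rfl | ha
    · rw [zero_smul, add_zero] at hv1 hv0
      exact heP ((mem_leads hmono).2 ⟨hen, u, hu, hv1, hv0⟩)
    · refine hpE ((Submodule.smul_mem_iff _ ha).1 ?_)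
      have hsub := sub_mem (Submodule.mem_sup_right (hmono (by omega : e + 1 ≤ c) hv1) :
        u + a • p ∈ P ⊔ E c) (Submodule.mem_sup_left hu)
      simpa using hsub
  have hS : leads E n P' = insert c (leads E n P) :=
    eq_of_subset_of_card_le hsub (by rw [hcard, card_insert_of_notMem hcP])
  show A (leads E n P')
  rw [hS]
  refine hA (leads E n P) (leads E n B) _ leads_subset_range ?_ ?_ (ssubset_insert hcP) ?_ ?_
  · rcases hP with rfl | h
    · exact Or.inr (Or.inl (leads_bot hmono))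
    · exact Or.inl h
  · rcases hB' with rfl | h
    · exact Or.inr (Or.inr (leads_top hmono hdim))
    · exact Or.inl h
  · refine Finset.ssubset_iff_subset_ne.2 ⟨insert_subset hcB' hRR₀, fun h => ?_⟩
    have := congrArg Finset.card h
    rw [card_insert_of_notMem hcP] at this
    omega
  · intro a ha b' hb'
    obtain ⟨ha1, ha2⟩ := mem_sdiff.1 ha
    obtain ⟨hb1', hb2⟩ := mem_sdiff.1 hb'
    obtain ⟨hbc, hbP⟩ := not_or.1 (mt mem_insert.2 hb2)
    rw [(mem_insert.1 ha1).resolve_right ha2]
    exact lt_of_le_of_ne (le_max' _ b' (mem_sdiff.2 ⟨hb1', hbP⟩)) hbc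

/-- Module II-d. -/
theorem fillStmt : FillStmt := by
  intro d
  refine ⟨d + 2, fun n hn => ?_⟩
  obtain ⟨M, hM⟩ := Full.Opp.fill n
  refine ⟨max M 1 * Full.Opp.cycleBound (max M 1) d,
    fun K V _ _ _ _ _ E hmono hdim hq A hA i hi z hz hcyc => ?_⟩
  let G : Submodule K V → Prop := fun x => A (leads E n x)
  have hiff : ∀ σ, Full.Opp.GSimp G (E n) σ ↔ ASimp E n A σ := fun σ =>
    and_congr_left fun _ => forall₂_congr fun x _ =>
      ⟨fun h => ⟨h.1, h.2.2.1, h.2.1, h.2.2.2⟩, fun h => ⟨h.1, h.2.2.1, h.2.1, h.2.2.2⟩⟩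
  obtain ⟨H, hH⟩ := Full.Opp.exists_isContr (P := Full.Opp.GSimp G (E n))
    (fun σ h τ hτ => h.mono hτ) d (max M 1) (le_max_right _ _) fun j hj w hw hwc hwb => by
      obtain ⟨y, h1, h2, h3⟩ := hM K V G (E n) j (hdim n le_rfl)
        (fun x hx h => gen_leads hmono hdim hA hx h) (by omega) w hw hwc
        (lt_of_le_of_lt (Nat.mul_le_mul (le_max_left _ _)
          (hwb.trans (Full.Opp.cycleBound_mono (le_max_right _ _) hj))) hq)
      exact ⟨y, h1, h2, h3.trans (Nat.mul_le_mul_right _ (le_max_left _ _))⟩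
  obtain ⟨y, h1, h2⟩ := hH.exists_filling hi (hz.mono fun σ h => ⟨(hiff σ).2 h.1, h.2⟩) hcyc
  exact ⟨y, h1.mono fun σ h => ⟨(hiff σ).1 h.1, h.2⟩, h2⟩

end Vale.Agent.P067.Alld.Bld
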